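import Vale.Agent.P022D.Dh.Alg
import Vale.Agent.P022E.NR.Main

namespace Vale.Agent.P022E.Dh.Alg
export Vale.Agent.P022D.Dh.Alg (
  odd_pow frob tors chev pow_sub dim_le)
end Vale.Agent.P022E.Dh.Alg

namespace Vale.Agent.P022E.Dh.Mt
export Vale.Agent.P022D.Dh.Mt (
  shape normal det_unit)
end Vale.Agent.P022E.Dh.Mt

namespace Vale.Agent.P022E.Dh.Cy
export Vale.Agent.P022D.Dh.Cy (
  cmp)
end Vale.Agent.P022E.Dh.Cy

namespace Vale.Agent.P022E.Dh
export Vale.Agent.P022D.Dh (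
  complete_quot)
end Vale.Agent.P022E.Dh
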