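import Vale.Agent.P022D.Dh.Cft

namespace Vale.Agent.P022E.Dh.Cft
export Vale.Agent.P022D.Dh.Cft (
  sy_mul val_fr sy_pow sy_map Rl sep cong one_add_ne rat two_pow dens sy recip gen supp
  pow_one_mod)
end Vale.Agent.P022E.Dh.Cft

namespace Vale.Agent.P022E.Dh.Cft.Rl
export Vale.Agent.P022D.Dh.Cft.Rl (
  pow mul)
end Vale.Agent.P022E.Dh.Cft.Rl

namespace Vale.Agent.P022E.Dh
export Vale.Agent.P022D.Dh (
  anti)
end Vale.Agent.P022E.Dh
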